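import Mathlib

/-!
Heilbronn's problem for point sets ordered along a path of given length and total turning.
-/

open Finset

namespace Vale.Agent.Results.P036.A_path

/-- Let `a 0, ..., a (n - 1)` be points of the plane, `n ≥ 3`.  Let `len j` be the length of the step
from `a j` to `a (j + 1)`, and `det j = det (a (j + 1) - a j, a (j + 2) - a j)`, so that the triangle
`a j, a (j + 1), a (j + 2)` has area `|det j| / 2` and `|det j| / (len j * len (j + 1))` is the sine of
the turning angle at `a (j + 1)`.  If `L` is the length of the path and `K` the sum of the sines of its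
turning angles, then some triangle of three consecutive points has area at most
`(27 / 2) L ^ 2 K / (n - 2) ^ 3`. -/
theorem result (n : ℕ) (hn : 3 ≤ n) (a : ℕ → ℝ × ℝ) (len det : ℕ → ℝ)
    (hlen : ∀ j, len j = Real.sqrt (((a (j + 1)).1 - (a j).1) ^ 2 + ((a (j + 1)).2 - (a j).2) ^ 2))
    (hdet : ∀ j, det j = ((a (j + 1)).1 - (a j).1) * ((a (j + 2)).2 - (a j).2) -
      ((a (j + 1)).2 - (a j).2) * ((a (j + 2)).1 - (a j).1)) :
    ∃ i, i < n - 2 ∧ (1 / 2) * |det i| ≤
      (27 / 2) * (∑ j ∈ range (n - 1), len j) ^ 2 *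
        (∑ j ∈ range (n - 2), |det j| / (len j * len (j + 1))) / ((n : ℝ) - 2) ^ 3 := by
  obtain ⟨m, rfl⟩ : ∃ m, n = m + 3 := ⟨n - 3, by omega⟩
  have e1 : m + 3 - 1 = m + 2 := by omega
  have e2 : m + 3 - 2 = m + 1 := by omega
  rw [e1, e2]
  set M : ℝ := ((m : ℝ) + 1) with hM
  have hMpos : 0 < M := by positivity
  have hMe : (((m + 3 : ℕ) : ℝ) - 2) = M := by
    push_cast
    rw [hM]
    ring
  rw [hMe]
  have hlen0 : ∀ j, 0 ≤ len j := fun j => by
    rw [hlen]
    exact Real.sqrt_nonneg _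
  let τ : ℕ → ℝ := fun j => |det j| / (len j * len (j + 1))
  have hτ0 : ∀ j, 0 ≤ τ j := fun j =>
    div_nonneg (abs_nonneg _) (mul_nonneg (hlen0 _) (hlen0 _))
  have hzero : ∀ j, len j = 0 → ((a (j + 1)).1 - (a j).1 = 0 ∧ (a (j + 1)).2 - (a j).2 = 0) := by
    intro j hj
    rw [hlen, Real.sqrt_eq_zero (by positivity)] at hj
    constructor
    · nlinarith [sq_nonneg ((a (j + 1)).1 - (a j).1), sq_nonneg ((a (j + 1)).2 - (a j).2)]
    · nlinarith [sq_nonneg ((a (j + 1)).1 - (a j).1), sq_nonneg ((a (j + 1)).2 - (a j).2)]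
  have hdet0 : ∀ j, len j * len (j + 1) = 0 → det j = 0 := by
    intro j hj
    rcases mul_eq_zero.mp hj with h | h
    · obtain ⟨h1, h2⟩ := hzero j h
      rw [hdet, h1, h2]
      ring
    · obtain ⟨h1, h2⟩ := hzero (j + 1) h
      have h3 : (a (j + 2)).1 - (a j).1 = (a (j + 1)).1 - (a j).1 := by
        have : (a (j + 1 + 1)).1 - (a (j + 1)).1 = 0 := h1
        have e : j + 1 + 1 = j + 2 := rfl
        rw [e] at this
        linarith
      have h4 : (a (j + 2)).2 - (a j).2 = (a (j + 1)).2 - (a j).2 := by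
        have : (a (j + 1 + 1)).2 - (a (j + 1)).2 = 0 := h2
        have e : j + 1 + 1 = j + 2 := rfl
        rw [e] at this
        linarith
      rw [hdet, h3, h4]
      ring
  have hfac : ∀ j, |det j| = τ j * (len j * len (j + 1)) := by
    intro j
    by_cases h : len j * len (j + 1) = 0
    · rw [hdet0 j h, h]
      simp
    · simp only [τ]
      rw [div_mul_cancel₀ _ h]
  set L := ∑ j ∈ range (m + 2), len j with hL
  set K := ∑ j ∈ range (m + 1), τ j with hK
  have hL0 : 0 ≤ L := Finset.sum_nonneg fun j _ => hlen0 j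
  have hK0 : 0 ≤ K := Finset.sum_nonneg fun j _ => hτ0 j
  have hx : ∑ j ∈ range (m + 1), len j ≤ L := by
    rw [hL, Finset.sum_range_succ _ (m + 1)]
    linarith [hlen0 (m + 1)]
  have hy : ∑ j ∈ range (m + 1), len (j + 1) ≤ L := by
    rw [hL, Finset.sum_range_succ' _ (m + 1)]
    linarith [hlen0 0]
  -- degenerate cases
  by_cases hLz : L = 0
  · refine ⟨0, by omega, ?_⟩
    have h1 : len 0 = 0 := by
      have h2 : len 0 ≤ L := by
        rw [hL]
        exact Finset.single_le_sum (f := len) (fun j _ => hlen0 j)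
          (Finset.mem_range.mpr (by omega))
      linarith [hlen0 0]
    have h3 : det 0 = 0 := hdet0 0 (by rw [h1, zero_mul])
    rw [h3, hLz]
    simp
  by_cases hKz : K = 0
  · refine ⟨0, by omega, ?_⟩
    have h1 : τ 0 = 0 := by
      have h2 : τ 0 ≤ K := by
        rw [hK]
        exact Finset.single_le_sum (f := τ) (fun j _ => hτ0 j)
          (Finset.mem_range.mpr (by omega))
      linarith [hτ0 0]
    have h3 : det 0 = 0 := by
      have h4 := hfac 0
      rw [h1, zero_mul] at h4
      exact abs_eq_zero.mp h4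
    rw [h3, hKz]
    simp
  have hLpos : 0 < L := lt_of_le_of_ne hL0 (Ne.symm hLz)
  have hKpos : 0 < K := lt_of_le_of_ne hK0 (Ne.symm hKz)
  -- the averaging step
  have hsum : ∑ j ∈ range (m + 1), (len j / L + len (j + 1) / L + τ j / K) ≤
      ∑ _j ∈ range (m + 1), (3 / M) := by
    rw [Finset.sum_add_distrib, Finset.sum_add_distrib, ← Finset.sum_div, ← Finset.sum_div,
      ← Finset.sum_div, Finset.sum_const, Finset.card_range, nsmul_eq_mul]
    have h1 : (∑ j ∈ range (m + 1), len j) / L ≤ 1 := by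
      rw [div_le_one hLpos]
      exact hx
    have h2 : (∑ j ∈ range (m + 1), len (j + 1)) / L ≤ 1 := by
      rw [div_le_one hLpos]
      exact hy
    have h3 : (∑ j ∈ range (m + 1), τ j) / K = 1 := div_self hKz
    have h4 : (((m + 1 : ℕ) : ℝ)) * (3 / M) = 3 := by
      push_cast
      rw [hM]
      field_simp
    rw [h3, h4]
    linarith
  obtain ⟨i, hi, hiS⟩ := Finset.exists_le_of_sum_le (Finset.nonempty_range_iff.mpr (by omega)) hsum
  refine ⟨i, Finset.mem_range.mp hi, ?_⟩
  have hA : 0 ≤ len i / L := div_nonneg (hlen0 _) hL0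
  have hB : 0 ≤ len (i + 1) / L := div_nonneg (hlen0 _) hL0
  have hC : 0 ≤ τ i / K := div_nonneg (hτ0 _) hK0
  have h3M : 0 < 3 / M := by positivity
  have hx1 : len i ≤ (3 / M) * L := by
    have : len i / L ≤ 3 / M := by linarith
    rwa [div_le_iff₀ hLpos] at this
  have hy1 : len (i + 1) ≤ (3 / M) * L := by
    have : len (i + 1) / L ≤ 3 / M := by linarith
    rwa [div_le_iff₀ hLpos] at this
  have hτ1 : τ i ≤ (3 / M) * K := by
    have : τ i / K ≤ 3 / M := by linarith
    rwa [div_le_iff₀ hKpos] at this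
  have hprod : |det i| ≤ ((3 / M) * K) * (((3 / M) * L) * ((3 / M) * L)) := by
    rw [hfac i]
    apply mul_le_mul hτ1 _ (mul_nonneg (hlen0 _) (hlen0 _)) (by positivity)
    exact mul_le_mul hx1 hy1 (hlen0 _) (by positivity)
  have hfinal : (27 / 2) * L ^ 2 * K / M ^ 3 =
      (1 / 2) * (((3 / M) * K) * (((3 / M) * L) * ((3 / M) * L))) := by
    field_simp
    ring
  rw [hfinal]
  linarith

end Vale.Agent.Results.P036.A_path
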